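import Mathlib

namespace Vale.Agent.H29.QACDefs

open Matrix

/-- Basis labels of an `N`-qubit register (`true` is the bit 1). -/
abbrev Lab (N : ℕ) : Type := Fin N → Bool

/-- A gate on `N` qubits: an arbitrary one-qubit unitary on qubit `q`, or the generalized
Toffoli gate with a nonempty set `C` of controls and a target `t` outside `C`. -/
inductive Gate (N : ℕ) : Type
  | one (q : Fin N) (U : Matrix Bool Bool ℂ) (hU : U ∈ Matrix.unitaryGroup Bool ℂ) : Gate N
  | tof (C : Finset (Fin N)) (t : Fin N) (hC : C.Nonempty) (ht : t ∉ C) : Gate N

/-- The set of qubits a gate acts on. -/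
def Gate.supp {N : ℕ} : Gate N → Finset (Fin N)
  | .one q _ _ => {q}
  | .tof C t _ _ => insert t C

/-- Whether the gate is a multiqubit gate. -/
def Gate.multi {N : ℕ} : Gate N → Bool
  | .one _ _ _ => false
  | .tof _ _ _ _ => true

/-- The action of a Toffoli gate on basis labels: the target bit is flipped when every
control bit is 1. -/
def flipLab {N : ℕ} (C : Finset (Fin N)) (t : Fin N) (z : Lab N) : Lab N :=
  Function.update z t (xor (z t) (decide (∀ c ∈ C, z c = true)))

/-- The unitary matrix of a gate; the entry `(y, z)` is the amplitude of `|y⟩` in the image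
of `|z⟩`. -/
def Gate.mat {N : ℕ} : Gate N → Matrix (Lab N) (Lab N) ℂ
  | .one q U _ => fun y z => if ∀ r, r ≠ q → y r = z r then U (y q) (z q) else 0
  | .tof C t _ _ => fun y z => if y = flipLab C t z then 1 else 0

/-- A layer: finitely many gates with pairwise disjoint supports. -/
structure Layer (N : ℕ) : Type where
  gates : List (Gate N)
  disj : gates.Pairwise (fun g h => Disjoint g.supp h.supp)

/-- The matrix of a layer. -/
noncomputable def Layer.mat {N : ℕ} (L : Layer N) : Matrix (Lab N) (Lab N) ℂ :=
  (L.gates.map Gate.mat).prod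

/-- Whether a layer contains a multiqubit gate. -/
def Layer.entangling {N : ℕ} (L : Layer N) : Bool := L.gates.any Gate.multi

/-- The matrix of a circuit given as the list of its layers, the head being applied first. -/
noncomputable def circMat {N : ℕ} : List (Layer N) → Matrix (Lab N) (Lab N) ℂ
  | [] => 1
  | L :: c => circMat c * L.mat

/-- Entangling depth: the number of layers that contain a multiqubit gate. -/
def entDepth {N : ℕ} (c : List (Layer N)) : ℕ := (c.filter Layer.entangling).length

/-- The initial label `x 0 … 0`. -/
def start {n N : ℕ} (x : Fin n → Bool) : Lab N :=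
  fun q => if h : (q : ℕ) < n then x ⟨q, h⟩ else false

/-- Probability that measuring qubit `o` after the circuit, started in `|x⟩|0…0⟩`, gives
the bit `b`. -/
noncomputable def outProb {n N : ℕ} (c : List (Layer N)) (o : Fin N) (x : Fin n → Bool)
    (b : Bool) : ℝ :=
  ∑ y : Lab N, if y o = b then ‖(circMat c).mulVec (Pi.single (start x) 1) y‖ ^ 2 else 0

/-- The parity of `x`. -/
def par {n : ℕ} (x : Fin n → Bool) : Bool :=
  decide (Odd (Finset.univ.filter fun i => x i = true).card)

/-- Parity correlation: average over uniform `x` of `Pr[correct] - Pr[wrong]`. -/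
noncomputable def parCorr (n : ℕ) {N : ℕ} (c : List (Layer N)) (o : Fin N) : ℝ :=
  (∑ x : Fin n → Bool, (outProb c o x (par x) - outProb c o x (!par x))) / 2 ^ n

/-- The circuit with output qubit `o` computes the parity of its `n` input bits with
worst-case advantage `ε`. -/
def ComputesParity (n : ℕ) {N : ℕ} (c : List (Layer N)) (o : Fin N) (ε : ℝ) : Prop :=
  ∀ x : Fin n → Bool, 1 / 2 + ε ≤ outProb c o x (par x)

end Vale.Agent.H29.QACDefs
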